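import Vale.Agent.P338.R3.H898.Arr
import Vale.Agent.P338.R3.H313.Ctl
import Vale.Agent.P338.R3.H50.IO

/-!
P338-D, PASSES: the acts of the diagonal, product, load and unload passes and of the rewind,
executed on flat arrays of cells (four cells per position `u`: index `4 u + 2 operand + im`).
-/

namespace Vale.Agent.P338.R3.H884

open Vale.Agent.P338.R2.H898 (Zip)
open Vale.Agent.P338.R3.H968
open Vale.Agent.P338.R3.H898
open Vale.Agent.P338.R3.H313.Ctl (reps rep)

/-! ### arrays -/

@[simp] theorem arr_zero (F : ℕ → Cell) : arr 0 F = [] := rfl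

theorem arr_succ (n : ℕ) (F : ℕ → Cell) : arr (n + 1) F = arr n F ++ [F n] := by
  simp [arr, List.range_succ]

/-- The cells `k, ..., n - 1`. -/
def arrF (k n : ℕ) (F : ℕ → Cell) : List Cell := (List.range' k (n - k)).map F

theorem arrF_zero (n : ℕ) (F : ℕ → Cell) : arrF 0 n F = arr n F := by
  simp [arrF, arr, List.range_eq_range']

theorem arrF_self (n : ℕ) (F : ℕ → Cell) : arrF n n F = [] := by simp [arrF]

theorem arrF_cons {k n : ℕ} (h : k < n) (F : ℕ → Cell) : arrF k n F = F k :: arrF (k + 1) n F := by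
  unfold arrF
  rw [show n - k = (n - (k + 1)) + 1 by omega, List.range'_succ, List.map_cons]

theorem arr4 (k : ℕ) (F : ℕ → Cell) : (arr (4 * (k + 1)) F).reverse =
    F (4 * k + 3) :: F (4 * k + 2) :: F (4 * k + 1) :: F (4 * k) :: (arr (4 * k) F).reverse := by
  rw [show 4 * (k + 1) = 4 * k + 1 + 1 + 1 + 1 by ring, arr_succ, arr_succ, arr_succ, arr_succ]
  simp

theorem arrF4 {k N : ℕ} (h : k < N) (F : ℕ → Cell) : arrF (4 * k) (4 * N) F =
    F (4 * k) :: F (4 * k + 1) :: F (4 * k + 2) :: F (4 * k + 3) :: arrF (4 * (k + 1)) (4 * N) F := by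
  rw [arrF_cons (by omega), arrF_cons (by omega), arrF_cons (by omega), arrF_cons (by omega)]
  rfl

theorem atL_congr (D : DS) {n : ℕ} {F F' : ℕ → Cell} (h : ∀ i < n, F i = F' i) :
    atL D n F = atL D n F' := by
  rw [atL, atL, arr_congr h]

theorem atR_congr (D : DS) {n : ℕ} {F F' : ℕ → Cell} (h : ∀ i < n, F i = F' i) :
    atR D n F = atR D n F' := by
  rw [atR, atR, arr_congr h]

/-! ### principles -/

variable {P : CPar}

/-- Principle for passes: the data after `u` positions are `S u`. -/
theorem ex_range {acts : ℕ → List Act} (S : ℕ → DS) : ∀ (N : ℕ),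
    (∀ u < N, Ex P (acts u) (S u) (S (u + 1))) → Ex P ((List.range N).flatMap acts) (S 0) (S N)
  | 0, _ => .nil _
  | N + 1, h => by
    rw [List.range_succ, List.flatMap_append]
    simp only [List.flatMap_cons, List.flatMap_nil, List.append_nil]
    exact (ex_range S N fun u hu => h u (by omega)).append (h N (by omega))

theorem reps_nil : reps ([] : List (ℕ × Act)) = [] := rfl

theorem reps_cons (n : ℕ) (a : Act) (l : List (ℕ × Act)) :
    reps ((n, a) :: l) = List.replicate n a ++ reps l := by
  simp [reps, rep]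

theorem reps_append (l l' : List (ℕ × Act)) : reps (l ++ l') = reps l ++ reps l' := by
  simp [reps]

theorem ex_reps_cons {n : ℕ} {a : Act} {l : List (ℕ × Act)} {D D' D'' : DS}
    (h : Ex P (List.replicate n a) D D') (h' : Ex P (reps l) D' D'') :
    Ex P (reps ((n, a) :: l)) D D'' := by
  rw [reps_cons]
  exact h.append h'

theorem ex_reps_one {n : ℕ} {a : Act} {D D' : DS} (h : Ex P (List.replicate n a) D D') :
    Ex P (reps [(n, a)]) D D' := by
  rw [reps_cons, reps_nil, List.append_nil]
  exact h

/-- Principle for passes over the array: `D u` are the other data after `u` positions. -/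
theorem ex_pass {acts : ℕ → List Act} {N : ℕ} {F F' : ℕ → Cell} (D : ℕ → DS)
    (h : ∀ u < N, ∀ l r : List Cell, Ex P (acts u)
      { D u with X := ⟨l, F (4 * u) :: F (4 * u + 1) :: F (4 * u + 2) :: F (4 * u + 3) :: r⟩ }
      { D (u + 1) with
        X := ⟨F' (4 * u + 3) :: F' (4 * u + 2) :: F' (4 * u + 1) :: F' (4 * u) :: l, r⟩ }) :
    Ex P ((List.range N).flatMap acts) (atL (D 0) (4 * N) F) (atR (D N) (4 * N) F') := by
  have h1 := ex_range (P := P) (acts := acts)
    (fun u => { D u with X := ⟨(arr (4 * u) F').reverse, arrF (4 * u) (4 * N) F⟩ }) N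
    (fun u hu => by
      have := h u hu (arr (4 * u) F').reverse (arrF (4 * (u + 1)) (4 * N) F)
      simp only
      rw [arr4, arrF4 hu]
      exact this)
  simp only [mul_zero, arr_zero, List.reverse_nil, arrF_zero, arrF_self] at h1
  exact h1

/-! ### rewind -/

/-- The instructions of the rewind. -/
def evRew (n : ℕ) : List (ℕ × Act) := [(n, aL)]

/-- **Rewind.** -/
theorem ex_rew (D : DS) (n : ℕ) (F : ℕ → Cell) :
    Ex P (reps (evRew n)) (atR D n F) (atL D n F) := ex_reps_one (ex_rewind P D n F)

theorem ex_right (n : ℕ) : ∀ (D : DS) (l r r' : List Cell), r.length = n →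
    Ex P (List.replicate n aR) { D with X := ⟨l, r ++ r'⟩ } { D with X := ⟨r.reverse ++ l, r'⟩ } := by
  induction n with
  | zero =>
    intro D l r r' h
    rw [List.length_eq_zero_iff] at h
    subst h
    exact .nil _
  | succ n ih =>
    intro D l r r' h
    obtain ⟨c, r, rfl⟩ : ∃ c l', r = c :: l' := by
      cases r with
      | nil => simp at h
      | cons c r => exact ⟨c, r, rfl⟩
    rw [List.replicate_succ]
    refine .cons (D' := { D with X := ⟨c :: l, r ++ r'⟩ }) (Ex1.mvR _ c l (r ++ r') rfl) ?_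
    have h2 := ih D (c :: l) r r' (by simpa using h)
    have e : (c :: r).reverse ++ l = r.reverse ++ c :: l := by simp
    rw [e]
    exact h2

/-! ### diagonal pass -/

/-- The instructions of the diagonal pass. -/
def evDiag (W : ℕ → List Bool × List Bool) (u : ℕ) : List (ℕ × Act) := [(2, aCmul (W u).1 (W u).2)]

theorem dgC_re (P : CPar) (W : ℕ → List Bool × List Bool) (F : ℕ → Cell) (u o : ℕ) (ho : o < 2) :
    dgC P W F (4 * u + 2 * o) =
      cmRe P (wv (W u).1) (wv (W u).2) (F (4 * u + 2 * o)) (F (4 * u + 2 * o + 1)) := by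
  have h1 : (4 * u + 2 * o) % 2 = 0 := by omega
  have h2 : (4 * u + 2 * o) / 4 = u := by omega
  rw [dgC, if_pos h1, h2]

theorem dgC_im (P : CPar) (W : ℕ → List Bool × List Bool) (F : ℕ → Cell) (u o : ℕ) (ho : o < 2) :
    dgC P W F (4 * u + 2 * o + 1) =
      cmIm P (wv (W u).1) (wv (W u).2) (F (4 * u + 2 * o)) (F (4 * u + 2 * o + 1)) := by
  have h1 : ¬ (4 * u + 2 * o + 1) % 2 = 0 := by omega
  have h2 : (4 * u + 2 * o + 1) / 4 = u := by omega
  rw [dgC, if_neg h1, h2, Nat.add_sub_cancel]

/-- **Diagonal pass.** -/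
theorem ex_diag (D : DS) (N : ℕ) (F : ℕ → Cell) (W : ℕ → List Bool × List Bool)
    (hW : ∀ u < N, (W u).1.length = P.b ∧ (W u).2.length = P.b) :
    Ex P ((List.range N).flatMap fun u => reps (evDiag W u)) (atL D (4 * N) F)
      (atR D (4 * N) (dgC P W F)) := by
  refine ex_pass (fun _ => D) fun u hu l r => ?_
  have e0 := dgC_re P W F u 0 (by norm_num)
  have e1 := dgC_im P W F u 0 (by norm_num)
  have e2 := dgC_re P W F u 1 (by norm_num)
  have e3 := dgC_im P W F u 1 (by norm_num)
  simp only [mul_zero, add_zero, mul_one] at e0 e1 e2 e3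
  rw [show 4 * u + 2 + 1 = 4 * u + 3 by ring] at e2 e3
  rw [e0, e1, e2, e3]
  refine ex_reps_one ?_
  rw [List.replicate_succ, List.replicate_one]
  refine .cons (Ex1.cmul _ (W u).1 (W u).2 _ _ _ _ (hW u hu).1 (hW u hu).2 rfl) (Ex.one ?_)
  exact Ex1.cmul _ (W u).1 (W u).2 _ _ _ _ (hW u hu).1 (hW u hu).2 rfl

/-- Diagonal pass and rewind. -/
theorem ex_diag' (D : DS) (N : ℕ) (F : ℕ → Cell) (W : ℕ → List Bool × List Bool)
    (hW : ∀ u < N, (W u).1.length = P.b ∧ (W u).2.length = P.b) :
    Ex P (((List.range N).flatMap fun u => reps (evDiag W u)) ++ List.replicate (4 * N) aL)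
      (atL D (4 * N) F) (atL D (4 * N) (dgC P W F)) :=
  (ex_diag D N F W hW).append (ex_rewind P D (4 * N) _)

/-! ### product pass -/

/-- The instructions of the product pass. -/
def evProd (_ : ℕ) : List (ℕ × Act) := [(1, aProd)]

theorem prC_re (P : CPar) (F : ℕ → Cell) (u : ℕ) : prC P F (4 * u) =
    cpRe P (F (4 * u)) (F (4 * u + 1)) (F (4 * u + 2)) (F (4 * u + 3)) := by
  rw [prC, if_pos (by omega)]

theorem prC_im (P : CPar) (F : ℕ → Cell) (u : ℕ) : prC P F (4 * u + 1) =
    cpIm P (F (4 * u)) (F (4 * u + 1)) (F (4 * u + 2)) (F (4 * u + 3)) := by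
  rw [prC, if_neg (by omega), if_pos (by omega)]
  rfl

theorem prC_zero (P : CPar) (F : ℕ → Cell) (u o : ℕ) (ho : o < 2) :
    prC P F (4 * u + 2 + o) = cZero := by
  rw [prC, if_neg (by omega), if_neg (by omega)]

/-- **Product pass.** -/
theorem ex_prod (D : DS) (N : ℕ) (F : ℕ → Cell) :
    Ex P ((List.range N).flatMap fun u => reps (evProd u)) (atL D (4 * N) F)
      (atR D (4 * N) (prC P F)) := by
  refine ex_pass (fun _ => D) fun u _ l r => ?_
  have e2 := prC_zero P F u 0 (by norm_num)
  have e3 := prC_zero P F u 1 (by norm_num)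
  rw [add_zero] at e2
  rw [show 4 * u + 2 + 1 = 4 * u + 3 by ring] at e3
  rw [prC_re, prC_im, e2, e3]
  exact ex_reps_one (Ex.one (Ex1.prod _ _ _ _ _ _ _ rfl))

/-- Product pass and rewind. -/
theorem ex_prod' (D : DS) (N : ℕ) (F : ℕ → Cell) :
    Ex P (((List.range N).flatMap fun u => reps (evProd u)) ++ List.replicate (4 * N) aL)
      (atL D (4 * N) F) (atL D (4 * N) (prC P F)) :=
  (ex_prod D N F).append (ex_rewind P D (4 * N) _)

/-! ### load pass -/

/-- The instructions of the load pass. -/
def evLoad (sel : ℕ → Bool) (u : ℕ) : List (ℕ × Act) :=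
  if sel u then [(1, aLoadX), (1, aZero), (1, aLoadY), (1, aZero)] else [(4, aZero)]

/-- The number of selected positions below `u`. -/
def cnt (sel : ℕ → Bool) (u : ℕ) : ℕ := Nat.count (fun v => sel v = true) u

@[simp] theorem cnt_zero (sel : ℕ → Bool) : cnt sel 0 = 0 := Nat.count_zero _

theorem cnt_succ (sel : ℕ → Bool) (u : ℕ) : cnt sel (u + 1) = cnt sel u + if sel u then 1 else 0 :=
  Nat.count_succ _ _

theorem cnt_mono (sel : ℕ → Bool) {u v : ℕ} (h : u ≤ v) : cnt sel u ≤ cnt sel v :=
  Nat.count_monotone _ h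

theorem cnt_lt {sel : ℕ → Bool} {u N : ℕ} (h : u < N) (hs : sel u = true) :
    cnt sel u < cnt sel N := by
  have h1 := cnt_mono sel (show u + 1 ≤ N from h)
  rw [cnt_succ, if_pos hs] at h1
  omega

/-- The value of a block. -/
def bv (b : List (List Bool)) (v : ℕ) : ℕ := Vale.Agent.P338.R2.H778.val (b.getD v [])

/-- The cells after the load pass. -/
def fLoad (P : CPar) (sel : ℕ → Bool) (bx cy : List (List Bool)) : ℕ → Cell :=
  ldC P sel (cnt sel) (fun v => bx.getD v []) (fun v => cy.getD v [])

theorem fLoad_apply (P : CPar) (sel : ℕ → Bool) (bx cy : List (List Bool)) (j : ℕ) :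
    fLoad P sel bx cy j = if sel (j / 4) then
    (if j % 4 = 0 then cLoad P (bv bx (cnt sel (j / 4)))
    else if j % 4 = 2 then cLoad P (bv cy (cnt sel (j / 4))) else cZero)
  else cZero := rfl

/-- The data after loading `c` blocks of each operand. -/
def dLoad (D : DS) (bx cy : List (List Bool)) (c : ℕ) : DS :=
  { D with
    ix := bx.drop c
    iy := cy.drop c
    jx := (bx.take c).reverse ++ D.jx
    jy := (cy.take c).reverse ++ D.jy }

theorem dLoad_zero (D : DS) : dLoad D D.ix D.iy 0 = D := by
  simp [dLoad]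

/-- **Load pass.** -/
theorem ex_load (D : DS) (N : ℕ) (sel : ℕ → Bool) (hX : D.X = ⟨[], []⟩)
    (hx : ∀ w ∈ D.ix, w.length = P.Y * P.w) (hy : ∀ w ∈ D.iy, w.length = P.Y * P.w)
    (hnx : cnt sel N ≤ D.ix.length) (hny : cnt sel N ≤ D.iy.length) :
    Ex P ((List.range N).flatMap fun u => reps (evLoad sel u)) D
      (atR (dLoad D D.ix D.iy (cnt sel N)) (4 * N) (fLoad P sel D.ix D.iy)) := by
  have h1 := ex_range (P := P) (acts := fun u => reps (evLoad sel u))
    (fun u => atR (dLoad D D.ix D.iy (cnt sel u)) (4 * u) (fLoad P sel D.ix D.iy)) N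
    (fun u hu => by
      simp only [atR]
      rw [arr4]
      have f0 : ∀ o < 4, (4 * u + o) / 4 = u := fun o ho => by omega
      have f1 : ∀ o < 4, (4 * u + o) % 4 = o := fun o ho => by omega
      have g0 := f0 0 (by norm_num)
      have g1 := f0 1 (by norm_num)
      have g2 := f0 2 (by norm_num)
      have g3 := f0 3 (by norm_num)
      have k0 := f1 0 (by norm_num)
      have k1 := f1 1 (by norm_num)
      have k2 := f1 2 (by norm_num)
      have k3 := f1 3 (by norm_num)
      rw [add_zero] at g0 k0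
      by_cases hs : sel u = true
      · have hc := cnt_lt hu hs
        have e0 : fLoad P sel D.ix D.iy (4 * u) = cLoad P (bv D.ix (cnt sel u)) := by
          simp [fLoad_apply, g0, k0, hs]
        have e1 : fLoad P sel D.ix D.iy (4 * u + 1) = cZero := by
          simp [fLoad_apply, g1, k1, hs]
        have e2 : fLoad P sel D.ix D.iy (4 * u + 2) = cLoad P (bv D.iy (cnt sel u)) := by
          simp [fLoad_apply, g2, k2, hs]
        have e3 : fLoad P sel D.ix D.iy (4 * u + 3) = cZero := by
          simp [fLoad_apply, g3, k3, hs]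
        rw [e0, e1, e2, e3, evLoad, if_pos hs, cnt_succ, if_pos hs]
        have hcx : cnt sel u < D.ix.length := by omega
        have hcy : cnt sel u < D.iy.length := by omega
        have dx : D.ix.drop (cnt sel u) = D.ix[cnt sel u] :: D.ix.drop (cnt sel u + 1) :=
          List.drop_eq_getElem_cons hcx
        have dy : D.iy.drop (cnt sel u) = D.iy[cnt sel u] :: D.iy.drop (cnt sel u + 1) :=
          List.drop_eq_getElem_cons hcy
        have tx : D.ix.take (cnt sel u + 1) = D.ix.take (cnt sel u) ++ [D.ix[cnt sel u]] :=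
          (List.take_append_getElem hcx).symm
        have ty : D.iy.take (cnt sel u + 1) = D.iy.take (cnt sel u) ++ [D.iy[cnt sel u]] :=
          (List.take_append_getElem hcy).symm
        have vx : bv D.ix (cnt sel u) = Vale.Agent.P338.R2.H778.val D.ix[cnt sel u] := by
          rw [bv, List.getD_eq_getElem _ _ hcx]
        have vy : bv D.iy (cnt sel u) = Vale.Agent.P338.R2.H778.val D.iy[cnt sel u] := by
          rw [bv, List.getD_eq_getElem _ _ hcy]
        rw [vx, vy]
        simp only [dLoad]
        rw [dx, dy, tx, ty]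
        simp only [List.reverse_append, List.reverse_cons, List.reverse_nil, List.nil_append,
          List.cons_append]
        refine ex_reps_cons (Ex.one (Ex1.loadX _ (D.ix[cnt sel u]) _ _ rfl rfl
          (hx _ (List.getElem_mem hcx)))) ?_
        refine ex_reps_cons (Ex.one (Ex1.zero _ _ rfl)) ?_
        refine ex_reps_cons (Ex.one (Ex1.loadY _ (D.iy[cnt sel u]) _ _ rfl rfl
          (hy _ (List.getElem_mem hcy)))) ?_
        exact ex_reps_one (Ex.one (Ex1.zero _ _ rfl))
      · have e0 : fLoad P sel D.ix D.iy (4 * u) = cZero := by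
          simp [fLoad_apply, g0, hs]
        have e1 : fLoad P sel D.ix D.iy (4 * u + 1) = cZero := by
          simp [fLoad_apply, g1, hs]
        have e2 : fLoad P sel D.ix D.iy (4 * u + 2) = cZero := by
          simp [fLoad_apply, g2, hs]
        have e3 : fLoad P sel D.ix D.iy (4 * u + 3) = cZero := by
          simp [fLoad_apply, g3, hs]
        rw [e0, e1, e2, e3, evLoad, if_neg hs, cnt_succ, if_neg hs, add_zero]
        refine ex_reps_one ?_
        simp only [List.replicate_succ, List.replicate_zero]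
        refine .cons (Ex1.zero _ _ rfl) (.cons (Ex1.zero _ _ rfl) (.cons (Ex1.zero _ _ rfl)
          (.cons (Ex1.zero _ _ rfl) ?_)))
        exact .nil _)
  have e0 : atR (dLoad D D.ix D.iy (cnt sel 0)) (4 * 0) (fLoad P sel D.ix D.iy) = D := by
    rw [cnt_zero, dLoad_zero, mul_zero, atR, arr_zero, List.reverse_nil, ← hX]
  rw [e0] at h1
  exact h1

/-! ### unload pass -/

open Vale.Agent.P338.R3.H50 (emits ovl)

/-- The instructions of the unload pass (after one `aZeroB`). -/
def evUnl (sel : ℕ → Bool) (u : ℕ) : List (ℕ × Act) :=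
  if sel u then [(1, aUnl), (3, aR)] else [(4, aR)]

theorem emit_snd_lt (P : CPar) (x : Cell) : ∀ (n k c : ℕ), c < 2 ^ P.b →
    (emit P x n k c).2 < 2 ^ P.b
  | 0, _, _, h => h
  | n + 1, k, c, _ => by
    simp only [emit]
    refine emit_snd_lt P x n (k + 1) _ ?_
    refine lt_of_le_of_lt (Nat.div_le_self _ _) (Nat.mod_lt _ (by positivity))

theorem emits_append (P : CPar) (l l' : List Cell) : ∀ c : ℕ,
    emits P (l ++ l') c = ((emits P l c).1 ++ (emits P l' (emits P l c).2).1,
      (emits P l' (emits P l c).2).2) := by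
  induction l with
  | nil => intro c; simp [emits]
  | cons x l ih =>
    intro c
    simp only [List.cons_append, emits, ih, List.append_assoc]

theorem emits_snd_lt (P : CPar) (l : List Cell) : ∀ c : ℕ, c < 2 ^ P.b →
    (emits P l c).2 < 2 ^ P.b := by
  induction l with
  | nil => intro c h; exact h
  | cons x l ih =>
    intro c h
    simp only [emits]
    exact ih _ (emit_snd_lt P x P.Y 0 c h)

/-- The top of the stack `B` after the release of `c` cells. -/
def topB (P : CPar) (C : ℕ → Cell) (c : ℕ) : Cell := if c = 0 then cZero else cHi P (C (c - 1))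

/-- The data after the release of `c` cells. -/
def dUnl (P : CPar) (D : DS) (C : ℕ → Cell) (c : ℕ) : DS :=
  { D with
    B := topB P C c :: D.B
    out := D.out ++ (emits P (arr c (ovl P C)) D.acc).1
    acc := (emits P (arr c (ovl P C)) D.acc).2 }

theorem ovl_eq (P : CPar) (C : ℕ → Cell) (c : ℕ) : ovl P C c = cAdd (cLo P (C c)) (topB P C c) := rfl

theorem dUnl_succ_out (P : CPar) (D : DS) (C : ℕ → Cell) (c : ℕ) : (dUnl P D C (c + 1)).out =
    (dUnl P D C c).out ++ (emit P (ovl P C c) P.Y 0 (dUnl P D C c).acc).1 := by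
  simp [dUnl, arr_succ, emits_append, emits, List.append_assoc]

theorem dUnl_succ_acc (P : CPar) (D : DS) (C : ℕ → Cell) (c : ℕ) : (dUnl P D C (c + 1)).acc =
    (emit P (ovl P C c) P.Y 0 (dUnl P D C c).acc).2 := by
  simp [dUnl, arr_succ, emits_append, emits]

theorem dUnl_zero (P : CPar) (D : DS) (C : ℕ → Cell) :
    dUnl P D C 0 = { D with B := cZero :: D.B } := by
  simp [dUnl, emits, topB]

/-- **Unload pass** (`C v` is the real cell at the selected position number `v`). -/
theorem ex_unl (D : DS) (N : ℕ) (sel : ℕ → Bool) (F C : ℕ → Cell) (hacc : D.acc < 2 ^ P.b)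
    (hC : ∀ u < N, sel u = true → C (cnt sel u) = F (4 * u)) :
    Ex P (aZeroB :: (List.range N).flatMap fun u => reps (evUnl sel u)) (atL D (4 * N) F)
      (atR (dUnl P D C (cnt sel N)) (4 * N) F) := by
  refine .cons (D' := atL (dUnl P D C (cnt sel 0)) (4 * N) F) ?_ ?_
  · have e : atL (dUnl P D C (cnt sel 0)) (4 * N) F =
        { atL D (4 * N) F with B := cZero :: (atL D (4 * N) F).B } := by
      rw [cnt_zero, dUnl_zero]
      rfl
    rw [e]
    exact Ex1.zeroB _
  · refine ex_pass (fun u => dUnl P D C (cnt sel u)) fun u hu l r => ?_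
    by_cases hs : sel u = true
    · rw [evUnl, if_pos hs, cnt_succ, if_pos hs]
      have ha : (dUnl P D C (cnt sel u)).acc < 2 ^ P.b := emits_snd_lt P _ _ hacc
      set c := cnt sel u with hc
      refine ex_reps_cons (D' := { dUnl P D C (c + 1) with
        X := ⟨F (4 * u) :: l, F (4 * u + 1) :: F (4 * u + 2) :: F (4 * u + 3) :: r⟩ }) ?_ ?_
      · refine Ex.one ?_
        have h1 := Ex1.unl (P := P) { dUnl P D C c with
          X := ⟨l, F (4 * u) :: F (4 * u + 1) :: F (4 * u + 2) :: F (4 * u + 3) :: r⟩ }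
          (F (4 * u)) (topB P C c) l
          (F (4 * u + 1) :: F (4 * u + 2) :: F (4 * u + 3) :: r) D.B rfl rfl ha
        have e2 := dUnl_succ_out P D C c
        have e3 := dUnl_succ_acc P D C c
        rw [ovl_eq, hC u hu hs] at e2 e3
        have e4 : (dUnl P D C (c + 1)).B = cHi P (F (4 * u)) :: D.B := by
          rw [← hC u hu hs]
          rfl
        have e5 : ({ dUnl P D C (c + 1) with
            X := ⟨F (4 * u) :: l, F (4 * u + 1) :: F (4 * u + 2) :: F (4 * u + 3) :: r⟩ } : DS) =
            { dUnl P D C c with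
              X := ⟨F (4 * u) :: l, F (4 * u + 1) :: F (4 * u + 2) :: F (4 * u + 3) :: r⟩
              B := cHi P (F (4 * u)) :: D.B
              out := (dUnl P D C c).out ++
                (emit P (cAdd (cLo P (F (4 * u))) (topB P C c)) P.Y 0 (dUnl P D C c).acc).1
              acc := (emit P (cAdd (cLo P (F (4 * u))) (topB P C c)) P.Y 0
                (dUnl P D C c).acc).2 } := by
          rw [← e2, ← e3, ← e4]
          rfl
        rw [e5]
        exact h1
      · refine ex_reps_one ?_
        have h2 := ex_right (P := P) 3 (dUnl P D C (c + 1)) (F (4 * u) :: l)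
          [F (4 * u + 1), F (4 * u + 2), F (4 * u + 3)] r rfl
        exact h2
    · rw [evUnl, if_neg hs, cnt_succ, if_neg hs, add_zero]
      refine ex_reps_one ?_
      exact ex_right (P := P) 4 (dUnl P D C (cnt sel u)) l
        [F (4 * u), F (4 * u + 1), F (4 * u + 2), F (4 * u + 3)] r rfl

end Vale.Agent.P338.R3.H884
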