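import Vale.Agent.P338.R3.H525.OpsY
import Vale.Agent.P338.R3.H898.Act

/-!
P338-D: loading a cell (opcodes 11 and 12): the next block of the input is spread into the words of
a new cell at the end of the array.
-/

namespace Vale.Agent.P338.R3.H884

open Vale.Agent.P338.R2.H898 hiding val
open Vale.Agent.P338.R2.H898.Prog
open Vale.Agent.P338.R2.H968
open Vale.Agent.P338.R2.H784
open Vale.Agent.P338.R2.H968.CallEnv (mem0)
open Vale.Agent.P338.R2.H778 (bits val length_bits bits_val val_append val_bits val_lt bits_add'
  bits_zero bits_mod val_inj val_bits_of_lt)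
open Vale.Agent.P338.R3.H968
open Vale.Agent.P338.R3.H525
open Function (update)

/-! ### the bits of a loaded cell -/

/-- The padded word number `k` of a block: `z` symbols `o`, `w` symbols of the block, `s` symbols
`o`. -/
def pword {α : Type*} (o : α) (z w s : ℕ) (B : List α) (k : ℕ) : List α :=
  List.replicate z o ++ ((B.drop (k * w)).take w ++ List.replicate s o)

theorem length_pword {α : Type*} {o : α} {z w s : ℕ} {B : List α} {k Y : ℕ}
    (hB : B.length = Y * w) (hk : k < Y) : (pword o z w s B k).length = z + (w + s) := by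
  have h1 : (k + 1) * w ≤ Y * w := Nat.mul_le_mul_right _ hk
  rw [Nat.succ_mul] at h1
  simp only [pword, List.length_append, List.length_replicate, List.length_take, List.length_drop,
    hB]
  omega

theorem map_pword {α β : Type*} (f : α → β) (o : α) (z w s : ℕ) (B : List α) (k : ℕ) :
    (pword o z w s B k).map f = pword (f o) z w s (B.map f) k := by
  simp [pword, List.map_take, List.map_drop]

/-- The digit `j` of a block of `Y` digits. -/
theorem val_digit {w Y j : ℕ} {B : List Bool} (hB : B.length = Y * w) (hj : j < Y) :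
    val B / 2 ^ (w * j) % 2 ^ w = val ((B.drop ((Y - 1 - j) * w)).take w) := by
  set k := Y - 1 - j with hk
  have hY : Y = k + (1 + j) := by omega
  have h1 : B = B.take (k * w) ++ ((B.drop (k * w)).take w ++ (B.drop (k * w)).drop w) := by
    rw [List.take_append_drop, List.take_append_drop]
  have hl1 : ((B.drop (k * w)).take w).length = w := by
    rw [List.length_take, List.length_drop, hB, hY]
    have : (k + (1 + j)) * w = k * w + (w + j * w) := by ring
    omega
  have hl2 : ((B.drop (k * w)).drop w).length = w * j := by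
    rw [List.length_drop, List.length_drop, hB, hY]
    have : (k + (1 + j)) * w = k * w + (w + w * j) := by ring
    omega
  conv_lhs => rw [h1]
  rw [val_append, val_append, List.length_append, hl1, hl2, pow_add]
  set a := val (B.take (k * w))
  set m := val ((B.drop (k * w)).take w)
  set c := val ((B.drop (k * w)).drop w)
  have hm : m < 2 ^ w := by
    have := val_lt ((B.drop (k * w)).take w)
    rwa [hl1] at this
  have hc : c < 2 ^ (w * j) := by
    have := val_lt ((B.drop (k * w)).drop w)
    rwa [hl2] at this
  have e1 : a * (2 ^ w * 2 ^ (w * j)) + (m * 2 ^ (w * j) + c) =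
      2 ^ (w * j) * (2 ^ w * a + m) + c := by ring
  rw [e1, Nat.mul_add_div (by positivity), Nat.div_eq_of_lt hc, add_zero, Nat.mul_add_mod,
    Nat.mod_eq_of_lt hm]

theorem wz_shift {b s w : ℕ} (h : s + w ≤ b) (D : List Bool) (hD : D.length = w) :
    wz b (((val D : ℕ) : ℤ) * 2 ^ s) =
      List.replicate (b - s - w) false ++ (D ++ List.replicate s false) := by
  have e1 : (((val D : ℕ) : ℤ) * 2 ^ s) = ((val D * 2 ^ s : ℕ) : ℤ) := by push_cast; ring
  have e2 : (((val D * 2 ^ s : ℕ) : ℤ) % 2 ^ b).toNat = val D * 2 ^ s % 2 ^ b := by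
    have : ((val D * 2 ^ s : ℕ) : ℤ) % 2 ^ b = ((val D * 2 ^ s % 2 ^ b : ℕ) : ℤ) := by
      push_cast
      rfl
    rw [this, Int.toNat_natCast]
  rw [wz, e1, e2, bits_mod]
  have hv : val D < 2 ^ w := by
    have := val_lt D
    rwa [hD] at this
  have hb : b = (b - s - w) + (w + s) := by omega
  have h3 : val D * 2 ^ s < 2 ^ (w + s) := by
    rw [pow_add]
    exact Nat.mul_lt_mul_of_pos_right hv (by positivity)
  conv_lhs => rw [hb]
  have h4 := bits_add' (b - s - w) (w + s) 0 (val D * 2 ^ s) h3
  rw [zero_mul, zero_add, bits_zero] at h4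
  rw [h4]
  have h5 := bits_add' w s (val D) 0 (by positivity)
  rw [add_zero, bits_zero] at h5
  rw [h5]
  congr 2
  rw [← hD]
  exact bits_val D

variable {P : CPar}

/-- **The bits of a loaded cell.** -/
theorem cellB_cLoad (hP : P.Ok) {B : List Bool} (hB : B.length = P.Y * P.w) :
    cellB P (cLoad P (val B)) = List.replicate (P.Y * P.b) false ++
      (List.range P.Y).flatMap (pword false (P.b - P.s - P.w) P.w P.s B) := by
  rw [cellB_halves]
  congr 1
  · rw [← wds_of_zero]
    exact wds_congr fun j _ => by simp [cLoad]
  · unfold wds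
    apply List.flatMap_congr
    intro i hi
    have hi' : i < P.Y := List.mem_range.1 hi
    have hj : P.Y - 1 - i < P.Y := by omega
    rw [cLoad, if_pos hj, val_digit hB hj]
    have e : P.Y - 1 - (P.Y - 1 - i) = i := by omega
    rw [e]
    have hl : ((B.drop (i * P.w)).take P.w).length = P.w := by
      have h1 : (i + 1) * P.w ≤ P.Y * P.w := Nat.mul_le_mul_right _ hi'
      rw [Nat.succ_mul] at h1
      rw [List.length_take, List.length_drop, hB]
      omega
    rw [wz_shift (by have := hP.hb; omega) _ hl]
    rfl

/-! ### programs on files -/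

section files

variable {M F α : Type} [DecidableEq F] {d : α}

/-- Append a padded word: `|rz|` symbols `o`, `|rw|` symbols of `g`, `|rs|` symbols `o`. -/
def word1 (e o : α) (g t rz rw rs : F) : Prog M F α :=
  .seq (fill o t rz) (.seq (copyN e g t rw) (fill o t rs))

theorem run_word1 {e o : α} {g t rz rw rs : F} (hgt : g ≠ t) (h1 : t ≠ rz) (h2 : g ≠ rw)
    (h3 : t ≠ rw) (h4 : t ≠ rs) (h6 : g ≠ rs) {x u y l Z W S : List α} {m : M}
    {z : F → Zip α} (hlen : x.length = W.length) (hg : z g = ⟨u, x ++ y⟩) (ht : z t = ⟨l, []⟩)
    (hz : z rz = ⟨[], Z⟩) (hw : z rw = ⟨[], W⟩) (hs : z rs = ⟨[], S⟩) :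
    Run d (word1 e o g t rz rw rs) ⟨m, z⟩ (Z.length * 4 + W.length * 5 + S.length * 4 + 6)
      ⟨m, update (update z g ⟨x.reverse ++ u, y⟩) t
        ⟨(List.replicate Z.length o ++ (x ++ List.replicate S.length o)).reverse ++ l, []⟩⟩ := by
  have k1 := run_fill (d := d) (a := o) h1 (m := m) ht hz
  rw [List.drop_nil] at k1
  have k2 := run_copyN' (d := d) (e := e) hgt h2 h3 (m := m)
    (z := update z t ⟨List.replicate Z.length o ++ l, []⟩) hlen
    (by rw [Function.update_of_ne hgt, hg]) (by rw [Function.update_self])
    (by rw [Function.update_of_ne h3.symm, hw])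
  rw [List.drop_nil] at k2
  have k3 := run_fill (d := d) (a := o) h4 (m := m)
    (z := update (update (update z t ⟨List.replicate Z.length o ++ l, []⟩) g
      ⟨x.reverse ++ u, y⟩) t ⟨x.reverse ++ (List.replicate Z.length o ++ l), []⟩)
    (by rw [Function.update_self])
    (by rw [Function.update_of_ne h4.symm, Function.update_of_ne h6.symm,
      Function.update_of_ne h4.symm, hs])
  rw [List.drop_nil] at k3
  have k4 := Run.seq k1 (Run.seq k2 k3)
  have e1 : update (update (update (update z t ⟨List.replicate Z.length o ++ l, []⟩) g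
      ⟨x.reverse ++ u, y⟩) t ⟨x.reverse ++ (List.replicate Z.length o ++ l), []⟩) t
      ⟨List.replicate S.length o ++ (x.reverse ++ (List.replicate Z.length o ++ l)), []⟩ =
      update (update z g ⟨x.reverse ++ u, y⟩) t
        ⟨(List.replicate Z.length o ++ (x ++ List.replicate S.length o)).reverse ++ l, []⟩ := by
    funext k
    simp only [Function.update_apply, List.reverse_append, List.reverse_replicate,
      List.append_assoc]
    split_ifs <;> simp_all
  rw [e1] at k4
  exact k4.mono (by omega)

/-- Append the padded words of a block of `g` (head at the left end of the block) to `t`. -/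
def wordsF (e o : α) (g t rY rz rw rs : F) : Prog M F α := forR rY (word1 e o g t rz rw rs)

theorem run_wordsF {e o : α} {g t rY rz rw rs : F} (hgt : g ≠ t) (h1 : t ≠ rz) (h2 : g ≠ rw)
    (h3 : t ≠ rw) (h4 : t ≠ rs) (h5 : g ≠ rz) (h6 : g ≠ rs) (h7 : g ≠ rY) (h8 : t ≠ rY)
    (h9 : rY ≠ rz) (h10 : rY ≠ rw) (h11 : rY ≠ rs) {B u y l Y Z W S : List α} {m : M}
    {z : F → Zip α} (hlen : B.length = Y.length * W.length) (hg : z g = ⟨u, B ++ y⟩)
    (ht : z t = ⟨l, []⟩) (hY : z rY = ⟨[], Y⟩) (hz : z rz = ⟨[], Z⟩) (hw : z rw = ⟨[], W⟩)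
    (hs : z rs = ⟨[], S⟩) :
    Run d (wordsF e o g t rY rz rw rs) ⟨m, z⟩
      (Y.length * (Z.length * 4 + W.length * 5 + S.length * 4 + 8) + 2)
      ⟨m, update (update z g ⟨B.reverse ++ u, y⟩) t
        ⟨((List.range Y.length).flatMap (pword o Z.length W.length S.length B)).reverse ++ l,
          []⟩⟩ := by
  set Zf : ℕ → F → Zip α := fun i => update (update z g
    ⟨(B.take (i * W.length)).reverse ++ u, B.drop (i * W.length) ++ y⟩) t
    ⟨((List.range i).flatMap (pword o Z.length W.length S.length B)).reverse ++ l, []⟩ with hZf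
  have key := run_forR (d := d) (r := rY) (p := word1 e o g t rz rw rs) (R := Y) (m := m) Zf
    (Z.length * 4 + W.length * 5 + S.length * 4 + 6)
    (fun i => by
      rw [hZf]
      simp only [Function.update_of_ne h8.symm, Function.update_of_ne h7.symm, hY])
    (fun i hi => by
      have hle : (i + 1) * W.length ≤ B.length := by
        rw [hlen]
        exact Nat.mul_le_mul_right _ hi
      rw [Nat.succ_mul] at hle
      have k1 := run_word1 (d := d) (e := e) (o := o) hgt h1 h2 h3 h4 h6
        (x := (B.drop (i * W.length)).take W.length)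
        (u := (B.take (i * W.length)).reverse ++ u) (y := B.drop ((i + 1) * W.length) ++ y)
        (l := ((List.range i).flatMap (pword o Z.length W.length S.length B)).reverse ++ l)
        (m := m) (z := update (Zf i) rY (zipAt Y i))
        (Z := Z) (W := W) (S := S)
        (by rw [List.length_take, List.length_drop]; omega)
        (by
          rw [Function.update_of_ne h7, hZf]
          simp only [Function.update_of_ne hgt, Function.update_self]
          rw [← List.append_assoc, Nat.succ_mul, ← List.drop_drop, List.take_append_drop])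
        (by
          rw [Function.update_of_ne h8, hZf]
          simp only [Function.update_self])
        (by
          rw [Function.update_of_ne h9.symm, hZf]
          simp only [Function.update_of_ne h1.symm, Function.update_of_ne h5.symm, hz])
        (by
          rw [Function.update_of_ne h10.symm, hZf]
          simp only [Function.update_of_ne h3.symm, Function.update_of_ne h2.symm, hw])
        (by
          rw [Function.update_of_ne h11.symm, hZf]
          simp only [Function.update_of_ne h4.symm, Function.update_of_ne h6.symm, hs])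
      have e1 : B.take ((i + 1) * W.length) =
          B.take (i * W.length) ++ (B.drop (i * W.length)).take W.length := by
        rw [Nat.succ_mul, List.take_add]
      have e2 : (List.range (i + 1)).flatMap (pword o Z.length W.length S.length B) =
          (List.range i).flatMap (pword o Z.length W.length S.length B) ++
            (List.replicate Z.length o ++ ((B.drop (i * W.length)).take W.length ++
              List.replicate S.length o)) := by
        rw [List.range_succ, List.flatMap_append]
        simp [pword]
      have e3 : update (update (update (Zf i) rY (zipAt Y i)) g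
          ⟨((B.drop (i * W.length)).take W.length).reverse ++
            ((B.take (i * W.length)).reverse ++ u), B.drop ((i + 1) * W.length) ++ y⟩) t
          ⟨(List.replicate Z.length o ++ ((B.drop (i * W.length)).take W.length ++
            List.replicate S.length o)).reverse ++
            (((List.range i).flatMap (pword o Z.length W.length S.length B)).reverse ++ l), []⟩ =
          update (Zf (i + 1)) rY (zipAt Y i) := by
        rw [hZf]
        simp only
        rw [e1, e2, List.reverse_append, List.reverse_append, List.append_assoc,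
          List.append_assoc]
        funext k
        simp only [Function.update_apply]
        split_ifs <;> simp_all
      rw [e3] at k1
      exact k1)
  have q0 : Zf 0 = z := by
    rw [hZf]
    simp only [zero_mul, List.take_zero, List.drop_zero, List.reverse_nil, List.nil_append,
      List.range_zero, List.flatMap_nil]
    rw [upd_self z g _ hg, upd_self z t _ ht]
  have q1 : Zf Y.length = update (update z g ⟨B.reverse ++ u, y⟩) t
        ⟨((List.range Y.length).flatMap (pword o Z.length W.length S.length B)).reverse ++ l,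
          []⟩ := by
    rw [hZf]
    simp only
    rw [← hlen, List.take_length, List.drop_length, List.nil_append]
  rw [q0, q1] at key
  exact key.mono (by ring_nf; omega)

/-- Append the padded words of the block to the left of the head of `g`, with `|rYb|` symbols `o`
in front, to `t`; the head of `g` ends at the left end of the block. -/
def loadF (e o : α) (g t rYw rYb rY rz rw rs : F) : Prog M F α :=
  .seq (mvL g rYw) (.seq (fill o t rYb) (.seq (wordsF e o g t rY rz rw rs) (mvL g rYw)))

theorem run_loadF {e o : α} {g t rYw rYb rY rz rw rs : F} (hgt : g ≠ t) (h1 : t ≠ rz)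
    (h2 : g ≠ rw) (h3 : t ≠ rw) (h4 : t ≠ rs) (h5 : g ≠ rz) (h6 : g ≠ rs) (h7 : g ≠ rY)
    (h8 : t ≠ rY) (h9 : rY ≠ rz) (h10 : rY ≠ rw) (h11 : rY ≠ rs) (h12 : g ≠ rYw) (h13 : t ≠ rYw)
    (h14 : g ≠ rYb) (h15 : t ≠ rYb) {B u y l Y Z W S RW RB : List α} {m : M} {z : F → Zip α}
    (hlen : B.length = Y.length * W.length) (hRW : RW.length = Y.length * W.length)
    (hg : z g = ⟨B.reverse ++ u, y⟩) (ht : z t = ⟨l, []⟩) (hY : z rY = ⟨[], Y⟩)
    (hz : z rz = ⟨[], Z⟩) (hw : z rw = ⟨[], W⟩) (hs : z rs = ⟨[], S⟩) (hrw : z rYw = ⟨[], RW⟩)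
    (hrb : z rYb = ⟨[], RB⟩) :
    Run d (loadF e o g t rYw rYb rY rz rw rs) ⟨m, z⟩
      (RW.length * 6 + RB.length * 4 +
        Y.length * (Z.length * 4 + W.length * 5 + S.length * 4 + 8) + 8)
      ⟨m, update (update z g ⟨u, B ++ y⟩) t
        ⟨(List.replicate RB.length o ++ (List.range Y.length).flatMap
          (pword o Z.length W.length S.length B)).reverse ++ l, []⟩⟩ := by
  have k1 := run_mvL (d := d) h12 (x := B.reverse) (l := u) (y := y) (R := RW) (m := m) (z := z)
    (by rw [List.length_reverse, hlen, hRW]) hg hrw
  rw [List.reverse_reverse] at k1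
  have k2 := run_fill (d := d) (a := o) h15 (l := l) (w := []) (R := RB) (m := m)
    (z := update z g ⟨u, B ++ y⟩) (by rw [Function.update_of_ne hgt.symm, ht])
    (by rw [Function.update_of_ne h14.symm, hrb])
  rw [List.drop_nil] at k2
  have k3 := run_wordsF (d := d) (e := e) (o := o) hgt h1 h2 h3 h4 h5 h6 h7 h8 h9 h10 h11
    (B := B) (u := u) (y := y) (l := List.replicate RB.length o ++ l) (Y := Y) (Z := Z) (W := W)
    (S := S) (m := m)
    (z := update (update z g ⟨u, B ++ y⟩) t ⟨List.replicate RB.length o ++ l, []⟩) hlen
    (by rw [Function.update_of_ne hgt, Function.update_self]) (by rw [Function.update_self])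
    (by rw [Function.update_of_ne h8.symm, Function.update_of_ne h7.symm, hY])
    (by rw [Function.update_of_ne h1.symm, Function.update_of_ne h5.symm, hz])
    (by rw [Function.update_of_ne h3.symm, Function.update_of_ne h2.symm, hw])
    (by rw [Function.update_of_ne h4.symm, Function.update_of_ne h6.symm, hs])
  set T : List α := (List.range Y.length).flatMap (pword o Z.length W.length S.length B) with hT
  have k4 := run_mvL (d := d) h12 (x := B.reverse) (l := u) (y := y) (R := RW) (m := m)
    (z := update (update (update (update z g ⟨u, B ++ y⟩) t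
      ⟨List.replicate RB.length o ++ l, []⟩) g ⟨B.reverse ++ u, y⟩) t
      ⟨T.reverse ++ (List.replicate RB.length o ++ l), []⟩)
    (by rw [List.length_reverse, hlen, hRW])
    (by rw [Function.update_of_ne hgt, Function.update_self])
    (by rw [Function.update_of_ne h13.symm, Function.update_of_ne h12.symm,
      Function.update_of_ne h13.symm, Function.update_of_ne h12.symm, hrw])
  rw [List.reverse_reverse] at k4
  have k5 := Run.seq k1 (Run.seq k2 (Run.seq k3 k4))
  have e1 : update (update (update (update (update z g ⟨u, B ++ y⟩) t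
      ⟨List.replicate RB.length o ++ l, []⟩) g ⟨B.reverse ++ u, y⟩) t
      ⟨T.reverse ++ (List.replicate RB.length o ++ l), []⟩) g ⟨u, B ++ y⟩ =
      update (update z g ⟨u, B ++ y⟩) t
        ⟨(List.replicate RB.length o ++ T).reverse ++ l, []⟩ := by
    rw [List.reverse_append, List.reverse_replicate, List.append_assoc]
    funext k
    simp only [Function.update_apply]
    split_ifs <;> simp_all
  rw [e1] at k5
  exact k5.mono (by omega)

end files

/-! ### the operations -/

variable {A : MTM} [DecidableEq A.Tape]

/-- The input files: `ix` (`false`), `iy` (`true`). -/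
abbrev fI (s : Bool) : FT A := Sum.inl (if s then .iy else .ix)

/-- Append the cell of the next block of the operand `s`. -/
def pLoad (A : MTM) [DecidableEq A.Tape] (s : Bool) : PC A :=
  loadF (dc A) (bc false) (fI s) fX (fR .Yw) (fR .Yb) (fR .Y) (fR .bsw) (fR .w) (fR .s)

omit [DecidableEq A.Tape] in
theorem fI_ne_fX (s : Bool) : (fI s : FT A) ≠ fX := by cases s <;> simp

omit [DecidableEq A.Tape] in
theorem fI_ne_fR (s : Bool) (k : RN) : (fI s : FT A) ≠ fR k := by cases s <;> simp

theorem ft_setI (D : DS) (s : Bool) (i j : List (List Bool)) :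
    (ft P (if s then { D with iy := i, jy := j } else { D with ix := i, jx := j }) :
      FT A → Zip (Ac A)) = update (ft P D) (fI s) (ic i j) := by
  rw [Function.eq_update_iff]
  refine ⟨by cases s <;> rfl, ?_⟩
  rintro (k | k) hk
  · cases s <;> cases k <;> first | rfl | exact absurd rfl hk
  · cases s <;> rfl

/-- The input of the operand `s`: blocks to be read, blocks already read. -/
def inp (D : DS) (s : Bool) : List (List Bool) × List (List Bool) :=
  if s then (D.iy, D.jy) else (D.ix, D.jx)

omit [DecidableEq A.Tape] in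
theorem ft_fI (D : DS) (s : Bool) :
    ft P D (fI s : FT A) = ic (inp D s).1 (inp D s).2 := by
  cases s <;> rfl

/-- The data after reading a block. -/
def rdI (D : DS) (s : Bool) (w : List Bool) (i : List (List Bool)) : DS :=
  if s then { D with iy := i, jy := w :: D.jy } else { D with ix := i, jx := w :: D.jx }

theorem run_pLoad (hP : P.Ok) (s : Bool) {D : DS} {w : List Bool} {i : List (List Bool)}
    {l : List Cell} (hX : D.X = ⟨l, []⟩) (hi : (inp D s).1 = w :: i)
    (hw : w.length = P.Y * P.w) :
    Run (dc A) (pLoad A s) (stc P D) (40 * (P.ell + 1))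
      (stc P { rdI D s w i with X := ⟨cLoad P (val w) :: l, []⟩ }) := by
  have hB : ((w.map bc : List (Ac A))).length =
      (List.replicate (rv P .Y) (Sy.u : Ac A)).length *
        (List.replicate (rv P .w) (Sy.u : Ac A)).length := by
    simp [rv, hw]
  have k := run_loadF (d := dc A) (e := dc A) (o := bc false) (fI_ne_fX (A := A) s)
    (fX_ne_fR .bsw) (fI_ne_fR s .w) (fX_ne_fR .w) (fX_ne_fR .s) (fI_ne_fR s .bsw)
    (fI_ne_fR s .s) (fI_ne_fR s .Y) (fX_ne_fR .Y) (by simp) (by simp) (by simp)
    (fI_ne_fR s .Yw) (fX_ne_fR .Yw) (fI_ne_fR s .Yb) (fX_ne_fR .Yb) (B := w.map bc)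
    (u := (i.flatMap List.reverse).map bc) (y := (inp D s).2.flatten.map bc)
    (l := (l.flatMap fun c => (cellB P c).reverse).map bc)
    (Y := List.replicate (rv P .Y) .u) (Z := List.replicate (rv P .bsw) .u)
    (W := List.replicate (rv P .w) .u) (S := List.replicate (rv P .s) .u)
    (RW := List.replicate (rv P .Yw) .u) (RB := List.replicate (rv P .Yb) .u) (m := mem0 A)
    (z := ft P D) hB (by simp [rv]) (by rw [ft_fI, hi]; simp [ic])
    (by rw [ft_fX, hX]; simp [zc]) (ft_fR D .Y) (ft_fR D .bsw) (ft_fR D .w) (ft_fR D .s)
    (ft_fR D .Yw) (ft_fR D .Yb)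
  have e0 : (ft P { rdI D s w i with X := ⟨cLoad P (val w) :: l, []⟩ } : FT A → Zip (Ac A)) =
      update (update (ft P D) (fI s) (ic i (w :: (inp D s).2))) fX
        (zc P ⟨cLoad P (val w) :: l, []⟩) := by
    rw [ft_setX]
    congr 1
    have := ft_setI (A := A) (P := P) D s i (w :: (inp D s).2)
    rw [← this]
    cases s <;> rfl
  unfold stc
  rw [e0, zc_left, cellB_cLoad hP hw]
  simp only [List.length_replicate, rv] at k
  have e1 : (ic i (w :: (inp D s).2) : Zip (Ac A)) =
      ⟨(i.flatMap List.reverse).map bc, w.map bc ++ (inp D s).2.flatten.map bc⟩ := by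
    simp [ic]
  have e2 : (((List.replicate (P.Y * P.b) false ++ (List.range P.Y).flatMap
      (pword false (P.b - P.s - P.w) P.w P.s w)).reverse).map bc : List (Ac A)) =
      (List.replicate (P.Y * P.b) (bc false) ++ (List.range P.Y).flatMap
        (pword (bc false) (P.b - P.s - P.w) P.w P.s (w.map bc))).reverse := by
    rw [List.map_reverse, List.map_append, List.map_replicate, List.map_flatMap]
    simp only [map_pword]
  rw [e1, e2]
  refine k.mono ?_
  have h1 := hP.hb
  have h2 : P.ell = P.Y * P.b + P.Y * P.b := ell_eq
  have h3 : P.Y * P.w ≤ P.Y * P.b := Nat.mul_le_mul_left _ (by omega)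
  have h4 : P.Y * ((P.b - P.s - P.w) * 4 + P.w * 5 + P.s * 4 + 8) ≤ P.Y * (13 * P.b) :=
    Nat.mul_le_mul_left _ (by omega)
  have h5 : P.Y * (13 * P.b) = 13 * (P.Y * P.b) := by ring
  omega

/-- **Opcodes 11 and 12.** -/
theorem run_load (hP : P.Ok) {o : ℕ} {u v : List Bool} (ho : o = 11 ∨ o = 12) {D D' : DS}
    (h : Vale.Agent.P338.R3.H898.Ex1 P (o, u, v) D D') :
    Run (dc A) (pLoad A (o == 12)) (stc P D) (40 * (P.ell + 1)) (stc P D') := by
  cases h with
  | loadX _ w i l hX hi hw =>
    exact run_pLoad (A := A) hP false (D := D) hX hi hw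
  | loadY _ w i l hX hi hw =>
    exact run_pLoad (A := A) hP true (D := D) hX hi hw
  | _ => omega

end Vale.Agent.P338.R3.H884
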